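import Mathlib

/-!
# Test functions supported in an open subset of `ℝ⁴`

The common definition for the lemmas (P), (Q), (N), (Z) on functionals on test functions.
-/

open scoped ContDiff

namespace Vale.Agent.P352.H467

/-- Four dimensional Euclidean space, the coordinate space. -/
abbrev M4 := EuclideanSpace ℝ (Fin 4)

/-- `G` is a smooth compactly supported function with support in `O`. -/
def Tf (O : Set M4) (G : M4 → ℂ) : Prop :=
  ContDiff ℝ ∞ G ∧ HasCompactSupport G ∧ tsupport G ⊆ O

end Vale.Agent.P352.H467
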