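import Mathlib

/-!
# Fatou for second moments

If `∫ 2(1 - cos (tₙ f)) ≤ mₙ tₙ²` with `tₙ ↓ 0` and `mₙ → M`, then `f²` is integrable and
`∫ f² ≤ M`.
-/

open MeasureTheory Filter Topology

namespace Vale.Agent.P352.H467

/-- `2(1 - cos (t y)) / t² → y²` as `t → 0`, `t ≠ 0`. -/
theorem tendsto_cos_quot (y : ℝ) (t : ℕ → ℝ) (t0 : ∀ n, 0 < t n) (tt : Tendsto t atTop (𝓝 0)) :
    Tendsto (fun n => 2 * (1 - Real.cos (t n * y)) / (t n) ^ 2) atTop (𝓝 (y ^ 2)) := by
  have h1 : ∀ u : ℝ, 2 * (1 - Real.cos u) = u ^ 2 * (Real.sinc (u / 2)) ^ 2 := by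
    intro u
    rcases eq_or_ne u 0 with h | h
    · subst h; simp
    · rw [Real.sinc_of_ne_zero (by simpa using h)]
      have := Real.cos_sq' (u / 2)
      have h2 : Real.cos u = 2 * Real.cos (u / 2) ^ 2 - 1 := by
        rw [← Real.cos_two_mul]; congr 1; ring
      rw [h2, this]
      field_simp
      ring
  have h3 : Tendsto (fun n => y ^ 2 * (Real.sinc (t n * y / 2)) ^ 2) atTop
      (𝓝 (y ^ 2 * (Real.sinc (0 * y / 2)) ^ 2)) := by
    refine Tendsto.mul tendsto_const_nhds (Tendsto.pow ?_ 2)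
    exact (Real.continuous_sinc.tendsto _).comp ((tt.mul_const y).div_const 2)
  have h4 : y ^ 2 * (Real.sinc (0 * y / 2)) ^ 2 = y ^ 2 := by simp
  rw [h4] at h3
  refine h3.congr fun n => ?_
  rw [h1, mul_pow]
  have := (t0 n).ne'
  field_simp

theorem fatou_sq {X : Type*} [MeasurableSpace X] (ν : Measure X) [IsFiniteMeasure ν] (f : X → ℝ)
    (hf : Measurable f) (M : ℝ) (t : ℕ → ℝ) (t0 : ∀ n, 0 < t n) (tt : Tendsto t atTop (𝓝 0))
    (m : ℕ → ℝ) (hm : Tendsto m atTop (𝓝 M))
    (h : ∀ n, ∫ x, 2 * (1 - Real.cos (t n * f x)) ∂ν ≤ m n * (t n) ^ 2) :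
    Integrable (fun x => f x ^ 2) ν ∧ ∫ x, f x ^ 2 ∂ν ≤ M := by
  set g : ℕ → X → ℝ := fun n x => 2 * (1 - Real.cos (t n * f x)) / (t n) ^ 2 with hg
  have g0 : ∀ n x, 0 ≤ g n x := by
    intro n x
    have := Real.cos_le_one (t n * f x)
    simp only [hg]
    have h2 := sq_nonneg (t n)
    apply div_nonneg _ h2
    linarith
  have gm : ∀ n, Measurable (g n) := by
    intro n
    simp only [hg]
    fun_prop
  have gb : ∀ n x, g n x ≤ 4 / (t n) ^ 2 := by
    intro n x
    have := Real.neg_one_le_cos (t n * f x)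
    simp only [hg]
    have h2 : 0 < (t n) ^ 2 := by have := t0 n; positivity
    apply div_le_div_of_nonneg_right _ h2.le
    linarith
  have gi : ∀ n, Integrable (g n) ν := by
    intro n
    refine Integrable.of_bound (gm n).aestronglyMeasurable (4 / (t n) ^ 2) ?_
    refine Eventually.of_forall fun x => ?_
    rw [Real.norm_eq_abs, abs_of_nonneg (g0 n x)]
    exact gb n x
  have gint : ∀ n, ∫ x, g n x ∂ν ≤ m n := by
    intro n
    have h2 : 0 < (t n) ^ 2 := by have := t0 n; positivity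
    simp only [hg]
    rw [integral_div, div_le_iff₀ h2]
    exact h n
  have m0 : ∀ n, 0 ≤ m n := fun n => (integral_nonneg (g0 n)).trans (gint n)
  have M0 : 0 ≤ M := ge_of_tendsto hm (Eventually.of_forall m0)
  have glim : ∀ x, Tendsto (fun n => g n x) atTop (𝓝 (f x ^ 2)) := fun x =>
    tendsto_cos_quot (f x) t t0 tt
  have key : ∫⁻ x, ENNReal.ofReal (f x ^ 2) ∂ν ≤ ENNReal.ofReal M := by
    calc ∫⁻ x, ENNReal.ofReal (f x ^ 2) ∂ν
        = ∫⁻ x, liminf (fun n => ENNReal.ofReal (g n x)) atTop ∂ν := by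
          refine lintegral_congr fun x => ?_
          exact ((ENNReal.continuous_ofReal.tendsto _).comp (glim x)).liminf_eq.symm
      _ ≤ liminf (fun n => ∫⁻ x, ENNReal.ofReal (g n x) ∂ν) atTop :=
          lintegral_liminf_le fun n => (gm n).ennreal_ofReal
      _ ≤ liminf (fun n => ENNReal.ofReal (m n)) atTop := by
          refine liminf_le_liminf (Eventually.of_forall fun n => ?_)
          rw [← ofReal_integral_eq_lintegral_ofReal (gi n) (Eventually.of_forall (g0 n))]
          exact ENNReal.ofReal_le_ofReal (gint n)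
      _ = ENNReal.ofReal M :=
          ((ENNReal.continuous_ofReal.tendsto _).comp hm).liminf_eq
  have fi : Integrable (fun x => f x ^ 2) ν := by
    refine ⟨(hf.pow_const 2).aestronglyMeasurable, ?_⟩
    rw [hasFiniteIntegral_iff_ofReal (Eventually.of_forall fun x => sq_nonneg (f x))]
    exact key.trans_lt ENNReal.ofReal_lt_top
  refine ⟨fi, ?_⟩
  rw [← ofReal_integral_eq_lintegral_ofReal fi (Eventually.of_forall fun x => sq_nonneg (f x))]
    at key
  exact (ENNReal.ofReal_le_ofReal_iff M0).1 key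

end Vale.Agent.P352.H467
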