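import Vale.Agent.P352.H496.Defs

/-! Geometry of null vectors for `Lin` (helper496). -/

namespace Vale.Agent.P352.H467.Geo

open Vale.Agent.P352.GF
open Vale.Agent.P352.H496

theorem mdot_four (x y : V) :
    mdot x y = x 0 * y 0 - x 1 * y 1 - x 2 * y 2 - x 3 * y 3 := by
  unfold mdot
  rw [Fin.sum_univ_four]
  simp [eta, o]
  ring

theorem mdot_comm' (x y : V) : mdot x y = mdot y x := by
  rw [mdot_four, mdot_four]
  ring

theorem mdot_comb (r s : ℝ) (x y z : V) :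
    mdot (r • x + s • y) z = r * mdot x z + s * mdot y z := by
  rw [mdot_four, mdot_four, mdot_four]
  simp only [Pi.add_apply, Pi.smul_apply, smul_eq_mul]
  ring

/-- a null vector with positive product with a future null vector is future -/
theorem fut_of {a b : V} (ha : IsNull a) (hb : mdot b b = 0) (hab : 0 < mdot a b) : IsNull b := by
  refine ⟨hb, ?_⟩
  obtain ⟨ha1, ha2⟩ := ha
  have ha2' : 0 < a 0 := ha2
  show 0 < b 0
  by_contra hneg
  have hb0 : b 0 ≤ 0 := not_lt.1 hneg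
  rw [mdot_four] at ha1 hb hab
  -- `v = b0 a - a0 b` has `v.v = -2 a0 b0 (a.b) ≥ 0` and `v0 = 0`
  have h1 : (b 0 * a 1 - a 0 * b 1) ^ 2 + (b 0 * a 2 - a 0 * b 2) ^ 2 +
      (b 0 * a 3 - a 0 * b 3) ^ 2 = 2 * a 0 * b 0 *
        (a 0 * b 0 - a 1 * b 1 - a 2 * b 2 - a 3 * b 3) := by
    have e1 : a 1 * a 1 + a 2 * a 2 + a 3 * a 3 = a 0 * a 0 := by linarith
    have e2 : b 1 * b 1 + b 2 * b 2 + b 3 * b 3 = b 0 * b 0 := by linarith
    linear_combination (b 0) ^ 2 * e1 + (a 0) ^ 2 * e2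
  have h2 : 2 * a 0 * b 0 * (a 0 * b 0 - a 1 * b 1 - a 2 * b 2 - a 3 * b 3) ≤ 0 := by
    have : a 0 * b 0 ≤ 0 := mul_nonpos_of_nonneg_of_nonpos ha2'.le hb0
    nlinarith
  have h3 : b 0 * a 1 - a 0 * b 1 = 0 := by
    have := sq_nonneg (b 0 * a 1 - a 0 * b 1)
    have h4 := sq_nonneg (b 0 * a 2 - a 0 * b 2)
    have h5 := sq_nonneg (b 0 * a 3 - a 0 * b 3)
    exact pow_eq_zero_iff (n := 2) (by norm_num) |>.1 (by linarith)
  have h4 : b 0 * a 2 - a 0 * b 2 = 0 := by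
    have := sq_nonneg (b 0 * a 1 - a 0 * b 1)
    have h4 := sq_nonneg (b 0 * a 2 - a 0 * b 2)
    have h5 := sq_nonneg (b 0 * a 3 - a 0 * b 3)
    exact pow_eq_zero_iff (n := 2) (by norm_num) |>.1 (by linarith)
  have h5 : b 0 * a 3 - a 0 * b 3 = 0 := by
    have := sq_nonneg (b 0 * a 1 - a 0 * b 1)
    have h4 := sq_nonneg (b 0 * a 2 - a 0 * b 2)
    have h5 := sq_nonneg (b 0 * a 3 - a 0 * b 3)
    exact pow_eq_zero_iff (n := 2) (by norm_num) |>.1 (by linarith)
  -- then `a0 (a.b) = b0 (a.a) = 0`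
  have h6 : a 0 * (a 0 * b 0 - a 1 * b 1 - a 2 * b 2 - a 3 * b 3) = 0 := by
    linear_combination (b 0) * ha1 + a 1 * h3 + a 2 * h4 + a 3 * h5
  have h7 := mul_pos ha2' hab
  linarith

theorem exists_wdg {a y : V} (ha : IsNull a) (hy : mdot y y < 0) (hay : mdot a y ≠ 0) :
    ∃ b, IsNull b ∧ 0 < mdot a b ∧ (y ∈ Wdg a b 0 ∨ y ∈ Wdg b a 0) := by
  obtain ⟨s, hs⟩ : ∃ s : ℝ, s = -(2 * mdot a y / mdot y y) := ⟨_, rfl⟩
  have hyy : mdot y y ≠ 0 := hy.ne
  have hsy : s * mdot y y = -(2 * mdot a y) := by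
    rw [hs]
    field_simp
  have hby : mdot ((1 : ℝ) • a + s • y) y = - mdot a y := by
    rw [mdot_comb, hsy]
    ring
  have hba : mdot ((1 : ℝ) • a + s • y) a = s * mdot a y := by
    rw [mdot_comb, ha.1, mdot_comm' y a]
    ring
  have hbb : mdot ((1 : ℝ) • a + s • y) ((1 : ℝ) • a + s • y) = 0 := by
    rw [mdot_comb, mdot_comm' a, mdot_comm' y, hba, hby]
    ring
  have hpos : 0 < s * mdot a y := by
    have h1 : s * mdot a y * mdot y y = -(2 * mdot a y) * mdot a y := by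
      rw [← hsy]
      ring
    have h2 : 0 < mdot a y * mdot a y := mul_self_pos.2 hay
    by_contra hneg
    have h3 : 0 ≤ s * mdot a y * mdot y y := mul_nonneg_of_nonpos_of_nonpos (not_lt.1 hneg) hy.le
    linarith
  have hab : 0 < mdot a ((1 : ℝ) • a + s • y) := by
    rw [mdot_comm', hba]
    exact hpos
  refine ⟨(1 : ℝ) • a + s • y, fut_of ha hbb hab, hab, ?_⟩
  rcases lt_or_gt_of_ne hay with h | h
  · left
    refine ⟨?_, ?_⟩
    · rw [sub_zero]
      exact h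
    · rw [sub_zero, hby]
      linarith
  · right
    refine ⟨?_, ?_⟩
    · rw [sub_zero, hby]
      linarith
    · rw [sub_zero]
      exact h

/-- products of two future null vectors -/
theorem null_pos {a b y : V} (ha : IsNull a) (hb : IsNull b) (hay : mdot a y = 0)
    (hby : mdot b y ≠ 0) : 0 < mdot a b := by
  obtain ⟨ha1, ha2⟩ := ha
  obtain ⟨hb1, hb2⟩ := hb
  have ha2' : 0 < a 0 := ha2
  have hb2' : 0 < b 0 := hb2
  by_contra hneg
  have hab : mdot a b ≤ 0 := not_lt.1 hneg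
  rw [mdot_four] at ha1 hb1 hab hay
  have h1 : (b 0 * a 1 - a 0 * b 1) ^ 2 + (b 0 * a 2 - a 0 * b 2) ^ 2 +
      (b 0 * a 3 - a 0 * b 3) ^ 2 = 2 * a 0 * b 0 *
        (a 0 * b 0 - a 1 * b 1 - a 2 * b 2 - a 3 * b 3) := by
    have e1 : a 1 * a 1 + a 2 * a 2 + a 3 * a 3 = a 0 * a 0 := by linarith
    have e2 : b 1 * b 1 + b 2 * b 2 + b 3 * b 3 = b 0 * b 0 := by linarith
    linear_combination (b 0) ^ 2 * e1 + (a 0) ^ 2 * e2
  have h2 : 2 * a 0 * b 0 * (a 0 * b 0 - a 1 * b 1 - a 2 * b 2 - a 3 * b 3) ≤ 0 := by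
    have : 0 < a 0 * b 0 := mul_pos ha2' hb2'
    nlinarith
  have h3 : b 0 * a 1 - a 0 * b 1 = 0 := by
    have := sq_nonneg (b 0 * a 1 - a 0 * b 1)
    have h4 := sq_nonneg (b 0 * a 2 - a 0 * b 2)
    have h5 := sq_nonneg (b 0 * a 3 - a 0 * b 3)
    exact pow_eq_zero_iff (n := 2) (by norm_num) |>.1 (by linarith)
  have h4 : b 0 * a 2 - a 0 * b 2 = 0 := by
    have := sq_nonneg (b 0 * a 1 - a 0 * b 1)
    have h4 := sq_nonneg (b 0 * a 2 - a 0 * b 2)
    have h5 := sq_nonneg (b 0 * a 3 - a 0 * b 3)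
    exact pow_eq_zero_iff (n := 2) (by norm_num) |>.1 (by linarith)
  have h5 : b 0 * a 3 - a 0 * b 3 = 0 := by
    have := sq_nonneg (b 0 * a 1 - a 0 * b 1)
    have h4 := sq_nonneg (b 0 * a 2 - a 0 * b 2)
    have h5 := sq_nonneg (b 0 * a 3 - a 0 * b 3)
    exact pow_eq_zero_iff (n := 2) (by norm_num) |>.1 (by linarith)
  apply hby
  rw [mdot_four]
  have h6 : a 0 * (b 0 * y 0 - b 1 * y 1 - b 2 * y 2 - b 3 * y 3) = 0 := by
    linear_combination (b 0) * hay + y 1 * h3 + y 2 * h4 + y 3 * h5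
  rcases mul_eq_zero.1 h6 with h | h
  · exact absurd h ha2'.ne'
  · exact h

/-- a common orthogonal vector -/
theorem exists_orth (a b y : V) : ∃ n : V, n ≠ 0 ∧ mdot n a = 0 ∧ mdot n b = 0 ∧ mdot n y = 0 := by
  obtain ⟨f, hf⟩ : ∃ f : V →ₗ[ℝ] (Fin 3 → ℝ), ∀ n, f n = ![mdot n a, mdot n b, mdot n y] := by
    refine ⟨{ toFun := fun n => ![mdot n a, mdot n b, mdot n y], map_add' := ?_, map_smul' := ?_ },
      fun n => rfl⟩
    · intro x z
      ext i
      fin_cases i <;> simp [mdot_four] <;> ring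
    · intro r x
      ext i
      fin_cases i <;> simp [mdot_four] <;> ring
  have hk : LinearMap.ker f ≠ ⊥ := LinearMap.ker_ne_bot_of_finrank_lt (by simp)
  obtain ⟨n, hn, hn0⟩ := (Submodule.ne_bot_iff _).1 hk
  have h1 : f n = 0 := LinearMap.mem_ker.1 hn
  rw [hf] at h1
  refine ⟨n, hn0, ?_, ?_, ?_⟩
  · exact congrFun h1 0
  · exact congrFun h1 1
  · exact congrFun h1 2

theorem exists_quad {a y : V} (ha : IsNull a) (hy : mdot y y < 0) (hay : mdot a y = 0) :
    ∃ b c d, IsNull b ∧ IsNull c ∧ IsNull d ∧ a + b = c + d ∧ mdot b y ≠ 0 ∧ mdot c y ≠ 0 ∧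
      mdot d y ≠ 0 := by
  have hy' := hy
  rw [mdot_four] at hy'
  obtain ⟨R, hR⟩ : ∃ R : ℝ, R = Real.sqrt (y 1 * y 1 + y 2 * y 2 + y 3 * y 3) := ⟨_, rfl⟩
  have hRpos : 0 < y 1 * y 1 + y 2 * y 2 + y 3 * y 3 := by
    have := mul_self_nonneg (y 0)
    linarith
  have hRR : R * R = y 1 * y 1 + y 2 * y 2 + y 3 * y 3 := by
    rw [hR]
    exact Real.mul_self_sqrt hRpos.le
  have hR0 : 0 < R := by
    rw [hR]
    exact Real.sqrt_pos.2 hRpos
  obtain ⟨b, hb⟩ : ∃ b : V, b = ![R, -y 1, -y 2, -y 3] := ⟨_, rfl⟩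
  have b0 : b 0 = R := by rw [hb]; rfl
  have b1 : b 1 = -y 1 := by rw [hb]; rfl
  have b2 : b 2 = -y 2 := by rw [hb]; rfl
  have b3 : b 3 = -y 3 := by rw [hb]; rfl
  have hbn : IsNull b := by
    refine ⟨?_, ?_⟩
    · rw [mdot_four, b0, b1, b2, b3]
      linarith
    · show 0 < b 0
      rw [b0]
      exact hR0
  have hby : mdot b y ≠ 0 := by
    rw [mdot_four, b0, b1, b2, b3]
    have h1 : (y 0) * (y 0) < R * R := by linarith
    have h2 : -R < y 0 := by
      by_contra hneg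
      have h3 : y 0 ≤ -R := not_lt.1 hneg
      nlinarith
    have h4 : 0 < R * (y 0 + R) := mul_pos hR0 (by linarith)
    have h5 : R * y 0 - -y 1 * y 1 - -y 2 * y 2 - -y 3 * y 3 = R * (y 0 + R) := by
      linear_combination -hRR
    rw [h5]
    exact h4.ne'
  have hab : 0 < mdot a b := null_pos ha hbn hay hby
  obtain ⟨n, hn0, hna, hnb, hny⟩ := exists_orth a b y
  have hnn : mdot n n < 0 := by
    have ha2 : 0 < a 0 := ha.2
    have hb2 : 0 < b 0 := hbn.2
    obtain ⟨s, hs⟩ : ∃ s : V, s = a + b := ⟨_, rfl⟩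
    have hs0 : 0 < s 0 := by
      rw [hs]
      show 0 < a 0 + b 0
      linarith
    have hss : s 1 * s 1 + s 2 * s 2 + s 3 * s 3 < s 0 * s 0 := by
      have e1 := ha.1
      have e2 := hbn.1
      have e3 := hab
      rw [mdot_four] at e1 e2 e3
      rw [hs]
      simp only [Pi.add_apply]
      nlinarith
    have hns : s 0 * n 0 = s 1 * n 1 + s 2 * n 2 + s 3 * n 3 := by
      have e1 := hna
      have e2 := hnb
      rw [mdot_four] at e1 e2
      rw [hs]
      simp only [Pi.add_apply]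
      linear_combination e1 + e2
    rw [mdot_four]
    have hcs : (s 1 * n 1 + s 2 * n 2 + s 3 * n 3) ^ 2 ≤
        (s 1 * s 1 + s 2 * s 2 + s 3 * s 3) * (n 1 * n 1 + n 2 * n 2 + n 3 * n 3) := by
      have e1 := sq_nonneg (s 1 * n 2 - s 2 * n 1)
      have e2 := sq_nonneg (s 1 * n 3 - s 3 * n 1)
      have e3 := sq_nonneg (s 2 * n 3 - s 3 * n 2)
      nlinarith
    have hn3 : 0 < n 1 * n 1 + n 2 * n 2 + n 3 * n 3 := by
      by_contra hneg
      have e1 := mul_self_nonneg (n 1)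
      have e2 := mul_self_nonneg (n 2)
      have e3 := mul_self_nonneg (n 3)
      have f1 : n 1 = 0 := mul_self_eq_zero.1 (by linarith)
      have f2 : n 2 = 0 := mul_self_eq_zero.1 (by linarith)
      have f3 : n 3 = 0 := mul_self_eq_zero.1 (by linarith)
      have f0 : n 0 = 0 := by
        have : s 0 * n 0 = 0 := by rw [hns, f1, f2, f3]; ring
        rcases mul_eq_zero.1 this with h | h
        · exact absurd h hs0.ne'
        · exact h
      apply hn0
      ext i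
      fin_cases i
      · exact f0
      · exact f1
      · exact f2
      · exact f3
    have h1 : (s 0 * n 0) ^ 2 < (s 0 * s 0) * (n 1 * n 1 + n 2 * n 2 + n 3 * n 3) := by
      rw [hns]
      exact lt_of_le_of_lt hcs (mul_lt_mul_of_pos_right hss hn3)
    have h2 : (s 0 * s 0) * (n 0 * n 0) < (s 0 * s 0) * (n 1 * n 1 + n 2 * n 2 + n 3 * n 3) := by
      calc (s 0 * s 0) * (n 0 * n 0) = (s 0 * n 0) ^ 2 := by ring
        _ < _ := h1
    have h3 := lt_of_mul_lt_mul_left h2 (mul_self_nonneg (s 0))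
    linarith
  obtain ⟨q, hq⟩ : ∃ q : ℝ, q = Real.sqrt (mdot a b / 2 / (-mdot n n)) := ⟨_, rfl⟩
  have hqq : q * q * mdot n n = -(mdot a b / 2) := by
    have h1 : 0 ≤ mdot a b / 2 / (-mdot n n) := by
      apply div_nonneg
      · linarith
      · linarith
    rw [hq, Real.mul_self_sqrt h1]
    have h2 : mdot n n ≠ 0 := hnn.ne
    field_simp
  have key : ∀ t : ℝ, t * t = q * q → IsNull ((1 / 2 : ℝ) • (a + b) + t • n) ∧
      mdot ((1 / 2 : ℝ) • (a + b) + t • n) y = mdot b y / 2 := by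
    intro t ht
    have hsum : ∀ z : V, mdot (a + b) z = mdot a z + mdot b z := by
      intro z
      rw [mdot_four, mdot_four, mdot_four]
      simp only [Pi.add_apply]
      ring
    have e1 : ∀ z : V, mdot ((1 / 2 : ℝ) • (a + b) + t • n) z =
        (mdot a z + mdot b z) / 2 + t * mdot n z := by
      intro z
      rw [mdot_comb, hsum]
      ring
    have ea : mdot ((1 / 2 : ℝ) • (a + b) + t • n) a = mdot a b / 2 := by
      rw [e1, ha.1, hna, mdot_comm' b a]
      ring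
    have eb : mdot ((1 / 2 : ℝ) • (a + b) + t • n) b = mdot a b / 2 := by
      rw [e1, hbn.1, hnb]
      ring
    have en : mdot ((1 / 2 : ℝ) • (a + b) + t • n) n = t * mdot n n := by
      rw [e1, mdot_comm' a n, mdot_comm' b n, hna, hnb]
      ring
    refine ⟨fut_of ha ?_ ?_, ?_⟩
    · rw [mdot_comb, hsum, mdot_comm' a, mdot_comm' b, mdot_comm' n, ea, eb, en]
      have h3 : t * (t * mdot n n) = -(mdot a b / 2) := by
        rw [← mul_assoc, ht, hqq]
      linarith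
    · rw [mdot_comm', ea]
      linarith
    · rw [e1, hay, hny]
      ring
  obtain ⟨hc1, hc2⟩ := key q rfl
  obtain ⟨hd1, hd2⟩ := key (-q) (by ring)
  refine ⟨b, _, _, hbn, hc1, hd1, ?_, hby, ?_, ?_⟩
  · ext i
    simp only [Pi.add_apply, Pi.smul_apply, smul_eq_mul]
    ring
  · rw [hc2]
    intro h
    exact hby (by linarith)
  · rw [hd2]
    intro h
    exact hby (by linarith)

end Vale.Agent.P352.H467.Geo
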