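import Mathlib

set_option linter.all false

/-!
# A positive kernel `c (n.η)² (η²)⁻³` lives on the light cone

If the Laplace transform of a positive measure on the closed forward cone satisfies
`□ K = 0` at one point, the measure is carried by `p² = 0`.
-/

open MeasureTheory Filter Topology ProbabilityTheory

namespace Vale.Agent.P352.H467

/-- Signs of the metric `(+,-,-,-)`. -/
def sg (j : Fin 4) : ℝ := if j = 0 then 1 else -1

/-- Minkowski product (literally `mdot`). -/
def md (x y : EuclideanSpace ℝ (Fin 4)) : ℝ :=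
  x 0 * y 0 - x 1 * y 1 - x 2 * y 2 - x 3 * y 3

theorem md_add_smul (p a b : EuclideanSpace ℝ (Fin 4)) (t : ℝ) :
    md p (a + t • b) = md p a + t * md p b := by
  simp only [md, PiLp.add_apply, PiLp.smul_apply, smul_eq_mul]
  ring

theorem md_single (p : EuclideanSpace ℝ (Fin 4)) (j : Fin 4) :
    md p (EuclideanSpace.single j 1) = sg j * p j := by
  fin_cases j <;> simp [md, sg]

theorem md_cont (a : EuclideanSpace ℝ (Fin 4)) : Continuous fun p => md p a := by
  unfold md
  fun_prop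

theorem md_self_cont : Continuous fun p : EuclideanSpace ℝ (Fin 4) => md p p := by
  unfold md
  fun_prop

/-- General form: `K (a + t e_j)`, `|t| < δ`, is the Laplace transform; if the sum of the
second derivatives with the signs of the metric vanishes, then `p² = 0` almost everywhere. -/
theorem massless_of_box (μ : Measure (EuclideanSpace ℝ (Fin 4)))
    (hcone : ∀ᵐ p ∂μ, 0 ≤ md p p) (a : EuclideanSpace ℝ (Fin 4)) (δ : ℝ) (hδ : 0 < δ)
    (k : Fin 4 → ℝ → ℝ)
    (hint : ∀ j t, |t| < δ →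
      Integrable (fun p => Real.exp (-md p (a + t • EuclideanSpace.single j 1))) μ)
    (hk : ∀ j t, |t| < δ →
      ∫ p, Real.exp (-md p (a + t • EuclideanSpace.single j 1)) ∂μ = k j t)
    (hbox : ∑ j, sg j * iteratedDeriv 2 (k j) 0 = 0) :
    ∀ᵐ p ∂μ, md p p = 0 := by
  set w : EuclideanSpace ℝ (Fin 4) → NNReal := fun p =>
    ⟨Real.exp (-md p a), (Real.exp_pos _).le⟩ with hw
  have wm : Measurable w := ((Real.continuous_exp.comp (md_cont a).neg).subtype_mk _).measurable
  set ν : Measure (EuclideanSpace ℝ (Fin 4)) := μ.withDensity fun p => (w p : ENNReal) with hν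
  have intν : ∀ f : EuclideanSpace ℝ (Fin 4) → ℝ,
      Integrable f ν ↔ Integrable (fun p => Real.exp (-md p a) * f p) μ := by
    intro f
    rw [hν, integrable_withDensity_iff_integrable_smul wm]
    rfl
  have eν : ∀ f : EuclideanSpace ℝ (Fin 4) → ℝ,
      ∫ p, f p ∂ν = ∫ p, Real.exp (-md p a) * f p ∂μ := by
    intro f
    rw [hν, integral_withDensity_eq_integral_smul wm]
    rfl
  set X : Fin 4 → EuclideanSpace ℝ (Fin 4) → ℝ := fun j p => -(sg j * p j) with hX
  have hexp : ∀ j t p, Real.exp (-md p a) * Real.exp (t * X j p)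
      = Real.exp (-md p (a + t • EuclideanSpace.single j 1)) := by
    intro j t p
    rw [← Real.exp_add, md_add_smul, md_single]
    congr 1
    simp only [hX]
    ring
  have hset : ∀ j, (0 : ℝ) ∈ interior (integrableExpSet (X j) ν) := by
    intro j
    rw [mem_interior_iff_mem_nhds]
    refine Filter.mem_of_superset (Ioo_mem_nhds (neg_lt_zero.2 hδ) hδ) ?_
    intro t ht
    have h1 := hint j t (abs_lt.2 ht)
    show Integrable (fun p => Real.exp (t * X j p)) ν
    rw [intν]
    refine h1.congr (Eventually.of_forall fun p => ?_)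
    exact (hexp j t p).symm
  have hmgf : ∀ j, mgf (X j) ν =ᶠ[𝓝 0] k j := by
    intro j
    filter_upwards [Ioo_mem_nhds (neg_lt_zero.2 hδ) hδ] with t ht
    rw [← hk j t (abs_lt.2 ht)]
    show ∫ p, Real.exp (t * X j p) ∂ν = _
    rw [eν]
    exact integral_congr_ae (Eventually.of_forall fun p => hexp j t p)
  have hder : ∀ j, iteratedDeriv 2 (k j) 0 = ∫ p, (p j) ^ 2 ∂ν := by
    intro j
    have h1 : iteratedDeriv 2 (mgf (X j) ν) 0 = iteratedDeriv 2 (k j) 0 :=
      (hmgf j).iteratedDeriv_eq 2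
    rw [← h1, iteratedDeriv_mgf_zero (hset j)]
    refine integral_congr_ae (Eventually.of_forall fun p => ?_)
    simp only [hX, Pi.pow_apply, sg]
    split_ifs <;> ring
  have hsq : ∀ j, Integrable (fun p : EuclideanSpace ℝ (Fin 4) => (p j) ^ 2) ν := by
    intro j
    have h1 := integrable_pow_of_mem_interior_integrableExpSet (hset j) 2
    refine h1.congr (Eventually.of_forall fun p => ?_)
    simp only [hX, sg]
    split_ifs <;> ring
  have hsum : ∫ p, md p p ∂ν = 0 := by
    have h1 : ∀ p : EuclideanSpace ℝ (Fin 4), md p p = ∑ j, sg j * (p j) ^ 2 := by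
      intro p
      simp only [md, sg, Fin.sum_univ_four]
      simp
      ring
    simp_rw [h1]
    rw [integral_finsetSum _ fun j _ => (hsq j).const_mul _]
    simp_rw [integral_const_mul]
    simp_rw [← hder]
    exact hbox
  have hint2 : Integrable (fun p => md p p) ν := by
    have h1 : (fun p : EuclideanSpace ℝ (Fin 4) => md p p) = fun p => ∑ j, sg j * (p j) ^ 2 := by
      funext p
      simp only [md, sg, Fin.sum_univ_four]
      simp
      ring
    rw [h1]
    exact integrable_finsetSum _ fun j _ => (hsq j).const_mul _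
  have hconeν : ∀ᵐ p ∂ν, 0 ≤ md p p := (withDensity_absolutelyContinuous μ _).ae_le hcone
  have h0 : (fun p => md p p) =ᵐ[ν] 0 := (integral_eq_zero_iff_of_nonneg_ae hconeν hint2).1 hsum
  have h1 : ∀ᵐ p ∂ν, md p p = 0 := h0
  rw [hν, ae_withDensity_iff wm.coe_nnreal_ennreal] at h1
  filter_upwards [h1] with p hp
  apply hp
  have : (0 : NNReal) < w p := Real.exp_pos _
  exact (ENNReal.coe_pos.2 this).ne'

theorem second (f f1 : ℝ → ℝ) (f2 : ℝ) (h : ∀ t, |t| < 1 / 2 → HasDerivAt f (f1 t) t)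
    (h2 : HasDerivAt f1 f2 0) : iteratedDeriv 2 f 0 = f2 := by
  rw [iteratedDeriv_succ, iteratedDeriv_one]
  have h3 : deriv f =ᶠ[𝓝 0] f1 := by
    filter_upwards [Ioo_mem_nhds (by norm_num : -(1 / 2 : ℝ) < 0) (by norm_num : (0 : ℝ) < 1 / 2)]
      with t ht
    exact (h t (abs_lt.2 ht)).deriv
  rw [h3.deriv_eq, h2.deriv]

theorem second_quot (c n m : ℝ) (q q1 : ℝ → ℝ) (q2 : ℝ)
    (hq : ∀ t, |t| < 1 / 2 → HasDerivAt q (q1 t) t) (hq0 : q 0 = 1)
    (hne : ∀ t, |t| < 1 / 2 → q t ≠ 0) (hq2 : HasDerivAt q1 q2 0) :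
    iteratedDeriv 2 (fun t : ℝ => c * (n + t * m) ^ 2 * (q t)⁻¹) 0 =
      c * (2 * m ^ 2 - 4 * n * m * q1 0 + n ^ 2 * (2 * (q1 0) ^ 2 - q2)) := by
  have lin : ∀ t : ℝ, HasDerivAt (fun t : ℝ => n + t * m) m t := by
    intro t
    simpa using ((hasDerivAt_id t).mul_const m).const_add n
  have z : |(0 : ℝ)| < 1 / 2 := by norm_num
  refine second _ (fun t => c * (2 * (n + t * m) * m) * (q t)⁻¹ +
    c * (n + t * m) ^ 2 * (-(q1 t) / (q t) ^ 2)) _ ?_ ?_
  · intro t ht
    have h1 := (((lin t).pow 2).const_mul c).mul ((hq t ht).inv (hne t ht))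
    refine HasDerivAt.congr_deriv h1 ?_
    simp only [Pi.pow_apply, Pi.inv_apply, Nat.add_one_sub_one, pow_one, Nat.cast_ofNat]
  · have h1 := (((lin 0).const_mul 2).mul_const m).const_mul c
    have h2 := h1.mul ((hq 0 z).inv (hne 0 z))
    have h3 := ((lin 0).pow 2).const_mul c
    have h4 := hq2.neg.div ((hq 0 z).pow 2) (pow_ne_zero 2 (hne 0 z))
    have h5 := h2.add (h3.mul h4)
    refine HasDerivAt.congr_deriv h5 ?_
    simp only [Pi.pow_apply, Pi.inv_apply, Pi.neg_apply, Pi.div_apply, Nat.add_one_sub_one,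
      pow_one, Nat.cast_ofNat, hq0]
    ring

/-- The kernel `c (n.η)² (η²)⁻³`, `n` null, is the Laplace transform of a positive measure on
the closed forward cone only if that measure is carried by `p² = 0`. -/
theorem massless_of_kernel (μ : Measure (EuclideanSpace ℝ (Fin 4)))
    (hcone : ∀ᵐ p ∂μ, 0 ≤ md p p) (n : EuclideanSpace ℝ (Fin 4)) (hn : md n n = 0) (c : ℝ)
    (hint : ∀ η, 0 < η 0 → 0 < md η η → Integrable (fun p => Real.exp (-md p η)) μ)
    (hK : ∀ η, 0 < η 0 → 0 < md η η →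
      ∫ p, Real.exp (-md p η) ∂μ = c * (md n η) ^ 2 * ((md η η) ^ 3)⁻¹) :
    ∀ᵐ p ∂μ, md p p = 0 := by
  set a : EuclideanSpace ℝ (Fin 4) := EuclideanSpace.single 0 1 with ha
  have e0 : ∀ t : ℝ, (a + t • EuclideanSpace.single (0 : Fin 4) (1 : ℝ)) 0 = 1 + t := by
    intro t; simp [ha]
  have e1 : ∀ (j : Fin 4) (t : ℝ), j ≠ 0 →
      (a + t • EuclideanSpace.single j (1 : ℝ)) 0 = 1 := by
    intro j t hj
    simp [ha, hj.symm]
  have q0 : ∀ t : ℝ, md (a + t • EuclideanSpace.single (0 : Fin 4) (1 : ℝ))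
      (a + t • EuclideanSpace.single (0 : Fin 4) (1 : ℝ)) = (1 + t) ^ 2 := by
    intro t; simp [ha, md]; ring
  have q1 : ∀ (j : Fin 4) (t : ℝ), j ≠ 0 → md (a + t • EuclideanSpace.single j (1 : ℝ))
      (a + t • EuclideanSpace.single j (1 : ℝ)) = 1 - t ^ 2 := by
    intro j t hj
    fin_cases j
    · exact absurd rfl hj
    all_goals simp [ha, md] <;> ring
  have n0 : ∀ (j : Fin 4) (t : ℝ), md n (a + t • EuclideanSpace.single j (1 : ℝ))
      = n 0 + t * (sg j * n j) := by
    intro j t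
    rw [md_add_smul, ha, md_single, md_single]
    simp [sg]
  have good : ∀ (j : Fin 4) (t : ℝ), |t| < 1 / 2 →
      0 < (a + t • EuclideanSpace.single j (1 : ℝ)) 0 ∧
      0 < md (a + t • EuclideanSpace.single j (1 : ℝ))
        (a + t • EuclideanSpace.single j (1 : ℝ)) := by
    intro j t ht
    have h1 := abs_lt.1 ht
    by_cases hj : j = 0
    · subst hj
      rw [e0, q0]
      constructor
      · linarith [h1.1]
      · have : 0 < 1 + t := by linarith [h1.1]
        positivity
    · rw [e1 j t hj, q1 j t hj]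
      refine ⟨one_pos, ?_⟩
      nlinarith [h1.1, h1.2]
  refine massless_of_box μ hcone a (1 / 2) (by norm_num)
    (fun j t => c * (md n (a + t • EuclideanSpace.single j 1)) ^ 2 *
      ((md (a + t • EuclideanSpace.single j 1) (a + t • EuclideanSpace.single j 1)) ^ 3)⁻¹)
    (fun j t ht => hint _ (good j t ht).1 (good j t ht).2)
    (fun j t ht => hK _ (good j t ht).1 (good j t ht).2) ?_
  -- second derivatives
  have D0 : iteratedDeriv 2 (fun t : ℝ => c * (n 0 + t * (sg 0 * n 0)) ^ 2 *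
      (((1 + t) ^ 2) ^ 3)⁻¹) 0 = 20 * c * (n 0) ^ 2 := by
    have lin : ∀ t : ℝ, HasDerivAt (fun t : ℝ => 1 + t) 1 t := fun t => by
      simpa using (hasDerivAt_id t).const_add 1
    rw [second_quot c (n 0) (sg 0 * n 0) (fun t => ((1 + t) ^ 2) ^ 3) (fun t => 6 * (1 + t) ^ 5)
      30 ?_ (by norm_num) ?_ ?_]
    · simp [sg]; ring
    · intro t _
      have h1 := ((lin t).pow 2).pow 3
      refine HasDerivAt.congr_deriv h1 ?_
      simp only [Pi.pow_apply, Nat.add_one_sub_one, pow_one, Nat.cast_ofNat]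
      ring
    · intro t ht
      have : 0 < 1 + t := by linarith [(abs_lt.1 ht).1]
      positivity
    · have h1 := ((lin 0).pow 5).const_mul 6
      refine HasDerivAt.congr_deriv h1 ?_
      norm_num
  have D1 : ∀ m : ℝ, iteratedDeriv 2 (fun t : ℝ => c * (n 0 + t * m) ^ 2 *
      ((1 - t ^ 2) ^ 3)⁻¹) 0 = c * (6 * (n 0) ^ 2 + 2 * m ^ 2) := by
    intro m
    have lin : ∀ t : ℝ, HasDerivAt (fun t : ℝ => 1 - t ^ 2) (-(2 * t)) t := fun t => by
      simpa using ((hasDerivAt_id t).pow 2).const_sub 1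
    rw [second_quot c (n 0) m (fun t => (1 - t ^ 2) ^ 3)
      (fun t => 3 * (1 - t ^ 2) ^ 2 * (-(2 * t))) (-6) ?_ (by norm_num) ?_ ?_]
    · ring
    · intro t _
      have h1 := (lin t).pow 3
      refine HasDerivAt.congr_deriv h1 ?_
      simp only [Pi.pow_apply, Nat.add_one_sub_one, pow_one, Nat.cast_ofNat]
    · intro t ht
      have h1 := abs_lt.1 ht
      have : 0 < 1 - t ^ 2 := by nlinarith [h1.1, h1.2]
      positivity
    · have h0 : HasDerivAt (fun t : ℝ => -(2 * t)) (-2) 0 := by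
        refine HasDerivAt.congr_deriv ((hasDerivAt_id (0 : ℝ)).const_mul 2).neg ?_
        norm_num
      have h1 := (((lin 0).pow 2).const_mul 3).mul h0
      refine HasDerivAt.congr_deriv h1 ?_
      norm_num
  rw [Fin.sum_univ_four]
  simp only [n0]
  simp_rw [q0, q1 1 _ (by decide), q1 2 _ (by decide), q1 3 _ (by decide)]
  rw [D0, D1, D1, D1]
  have hn' : (n 0) ^ 2 = (n 1) ^ 2 + (n 2) ^ 2 + (n 3) ^ 2 := by
    unfold md at hn
    linarith
  simp only [sg]
  simp
  rw [hn']
  ring

end Vale.Agent.P352.H467
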