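import Mathlib

/-!
# Positivity of the integrated correlation function

`R` an inner product preserving action of `ℝ²` on a (not complete) inner product space `D`,
`C` a linear, `R`-invariant map with `0 ≤ Re ⟪v, C v⟫` for all `v`. If `c ↦ ⟪R c z, C z⟫` is
integrable then its integral has nonnegative real part.
-/

open MeasureTheory Filter Topology

namespace Vale.Agent.P352.H467

/-- Positivity for simple functions. -/
theorem pos_simple (μ : Measure (ℝ × ℝ)) [IsFiniteMeasure μ] (φ : ℝ × ℝ → ℝ)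
    (hpos : ∀ (s : Finset (ℝ × ℝ)) (w : ℝ × ℝ → ℝ),
      0 ≤ ∑ a ∈ s, ∑ b ∈ s, w a * w b * φ (a - b)) (P : SimpleFunc (ℝ × ℝ) (ℝ × ℝ)) :
    0 ≤ ∫ x, ∫ y, φ (P x - P y) ∂μ ∂μ := by
  classical
  have key : ∀ F : ℝ × ℝ → ℝ, ∫ y, F (P y) ∂μ = ∑ b ∈ P.range, μ.real (P ⁻¹' {b}) * F b := by
    intro F
    have h1 : ∀ y, F (P y) = ∑ b ∈ P.range, (P ⁻¹' {b}).indicator (fun _ => F b) y := by
      intro y
      rw [Finset.sum_eq_single (P y)]
      · simp
      · intro b _ hb
        apply Set.indicator_of_notMem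
        simpa using fun h => hb h.symm
      · intro h
        exact absurd (P.mem_range_self y) h
    simp_rw [h1]
    rw [integral_finsetSum]
    · refine Finset.sum_congr rfl fun b _ => ?_
      rw [integral_indicator_const _ (P.measurableSet_fiber b), smul_eq_mul]
    · intro b _
      exact (integrable_const (F b)).indicator (P.measurableSet_fiber b)
  have h2 : ∀ x, ∫ y, φ (P x - P y) ∂μ = ∑ b ∈ P.range, μ.real (P ⁻¹' {b}) * φ (P x - b) :=
    fun x => key fun b => φ (P x - b)
  simp_rw [h2]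
  rw [key fun a => ∑ b ∈ P.range, μ.real (P ⁻¹' {b}) * φ (a - b)]
  have := hpos P.range fun a => μ.real (P ⁻¹' {a})
  refine this.trans_eq ?_
  refine Finset.sum_congr rfl fun a _ => ?_
  rw [Finset.mul_sum]
  refine Finset.sum_congr rfl fun b _ => ?_
  ring

theorem pos_meas (μ : Measure (ℝ × ℝ)) [IsFiniteMeasure μ] (φ : ℝ × ℝ → ℝ)
    (hφ : Continuous φ) (B : ℝ) (hB : ∀ c, |φ c| ≤ B)
    (hpos : ∀ (s : Finset (ℝ × ℝ)) (w : ℝ × ℝ → ℝ),
      0 ≤ ∑ a ∈ s, ∑ b ∈ s, w a * w b * φ (a - b)) :
    0 ≤ ∫ x, ∫ y, φ (x - y) ∂μ ∂μ := by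
  set P : ℕ → SimpleFunc (ℝ × ℝ) (ℝ × ℝ) := fun n =>
    SimpleFunc.approxOn id measurable_id Set.univ 0 (Set.mem_univ _) n with hP
  have hPt : ∀ x, Tendsto (fun n => P n x) atTop (𝓝 x) := fun x =>
    SimpleFunc.tendsto_approxOn measurable_id (Set.mem_univ _) (by simp)
  have h1 : Tendsto (fun n => ∫ x, ∫ y, φ (P n x - P n y) ∂μ ∂μ) atTop
      (𝓝 (∫ x, ∫ y, φ (x - y) ∂μ ∂μ)) := by
    refine tendsto_integral_of_dominated_convergence (fun _ => B * μ.real Set.univ) ?_
      (integrable_const _) ?_ ?_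
    · intro n
      have hm : Measurable fun x : ℝ × ℝ => ∫ y, φ (P n x - P n y) ∂μ := by
        have : StronglyMeasurable fun x : ℝ × ℝ => ∫ y, φ (P n x - P n y) ∂μ := by
          refine StronglyMeasurable.integral_prod_right'
            (f := fun p : (ℝ × ℝ) × (ℝ × ℝ) => φ (P n p.1 - P n p.2)) ?_
          have h3 : Measurable fun p : (ℝ × ℝ) × (ℝ × ℝ) => P n p.1 - P n p.2 :=
            ((P n).measurable.comp measurable_fst).sub ((P n).measurable.comp measurable_snd)
          exact (hφ.measurable.comp h3).stronglyMeasurable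
        exact this.measurable
      exact hm.aestronglyMeasurable
    · intro n
      refine Eventually.of_forall fun x => ?_
      refine (norm_integral_le_of_norm_le_const (Eventually.of_forall fun y => ?_))
      exact hB _
    · refine Eventually.of_forall fun x => ?_
      refine tendsto_integral_of_dominated_convergence (fun _ => B) ?_ (integrable_const _) ?_ ?_
      · intro n
        exact (hφ.measurable.comp (measurable_const.sub (P n).measurable)).aestronglyMeasurable
      · intro n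
        exact Eventually.of_forall fun y => hB _
      · refine Eventually.of_forall fun y => ?_
        exact (hφ.tendsto _).comp ((hPt x).sub (hPt y))
  exact ge_of_tendsto h1 (Eventually.of_forall fun n => pos_simple μ φ hpos (P n))

/-- Gaussian weight. -/
noncomputable def gau (e : ℝ) (x : ℝ × ℝ) : ℝ := Real.exp (-e * (x.1 ^ 2 + x.2 ^ 2))

theorem gau_pos (e : ℝ) (x : ℝ × ℝ) : 0 < gau e x := Real.exp_pos _

theorem gau_cont (e : ℝ) : Continuous (gau e) := by
  unfold gau
  fun_prop

theorem gau_int {e : ℝ} (he : 0 < e) : Integrable (gau e) := by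
  have h := (integrable_exp_neg_mul_sq he).mul_prod (integrable_exp_neg_mul_sq he)
  refine h.congr (Eventually.of_forall fun x => ?_)
  simp only [gau]
  rw [← Real.exp_add]
  congr 1
  ring

theorem gau_le_one {e : ℝ} (he : 0 ≤ e) (x : ℝ × ℝ) : gau e x ≤ 1 := by
  unfold gau
  rw [Real.exp_le_one_iff]
  have : 0 ≤ e * (x.1 ^ 2 + x.2 ^ 2) := by positivity
  linarith

theorem gau_mul (e : ℝ) (x c : ℝ × ℝ) :
    gau e x * gau e (x - c) = gau (2 * e) (x - (1 / 2 : ℝ) • c) * gau (e / 2) c := by
  unfold gau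
  rw [← Real.exp_add, ← Real.exp_add]
  congr 1
  simp only [Prod.fst_sub, Prod.snd_sub, Prod.smul_fst, Prod.smul_snd, smul_eq_mul]
  ring

theorem gau_conv (e : ℝ) (c : ℝ × ℝ) :
    ∫ x, gau e x * gau e (x - c) = (∫ x, gau (2 * e) x) * gau (e / 2) c := by
  simp_rw [gau_mul]
  rw [integral_mul_const]
  congr 1
  exact integral_sub_right_eq_self (gau (2 * e)) ((1 / 2 : ℝ) • c)

theorem pos_gau {e : ℝ} (he : 0 < e) (φ : ℝ × ℝ → ℝ)
    (hφ : Continuous φ) (B : ℝ) (hB : ∀ c, |φ c| ≤ B)
    (hpos : ∀ (s : Finset (ℝ × ℝ)) (w : ℝ × ℝ → ℝ),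
      0 ≤ ∑ a ∈ s, ∑ b ∈ s, w a * w b * φ (a - b)) (hi : Integrable φ) :
    0 ≤ ∫ c, φ c * gau (e / 2) c := by
  set g : ℝ × ℝ → NNReal := fun x => ⟨gau e x, (gau_pos e x).le⟩ with hg
  have gmeas : Measurable g := ((gau_cont e).subtype_mk _).measurable
  set μ : Measure (ℝ × ℝ) := volume.withDensity fun x => (g x : ENNReal) with hμ
  have hfin : IsFiniteMeasure μ := by
    refine ⟨?_⟩
    rw [hμ, withDensity_apply _ MeasurableSet.univ, Measure.restrict_univ]
    have h1 := (gau_int he).lintegral_lt_top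
    refine lt_of_eq_of_lt (lintegral_congr fun x => ?_) h1
    simp only [hg]
    rw [ENNReal.ofReal_eq_coe_nnreal (gau_pos e x).le]
    rfl
  have h0 := pos_meas μ φ hφ B hB hpos
  have h1 : ∫ x, ∫ y, φ (x - y) ∂μ ∂μ = ∫ x, gau e x * ∫ y, gau e y * φ (x - y) := by
    rw [hμ, integral_withDensity_eq_integral_smul gmeas]
    refine integral_congr_ae (Eventually.of_forall fun x => ?_)
    simp only
    rw [integral_withDensity_eq_integral_smul gmeas]
    rfl
  have h2 : ∀ x, ∫ y, gau e y * φ (x - y) = ∫ c, gau e (x - c) * φ c := by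
    intro x
    rw [← integral_sub_left_eq_self (fun c => gau e (x - c) * φ c) volume x]
    refine integral_congr_ae (Eventually.of_forall fun y => ?_)
    simp
  have h3 : ∫ x, gau e x * ∫ y, gau e y * φ (x - y)
      = ∫ x, ∫ c, gau e x * (gau e (x - c) * φ c) := by
    refine integral_congr_ae (Eventually.of_forall fun x => ?_)
    simp only
    rw [h2, integral_const_mul]
  have h4 : ∫ x, ∫ c, gau e x * (gau e (x - c) * φ c)
      = ∫ c, ∫ x, gau e x * (gau e (x - c) * φ c) := by
    refine integral_integral_swap ?_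
    have hd : Integrable (fun p : (ℝ × ℝ) × (ℝ × ℝ) => gau e p.1 * |φ p.2|)
        (volume.prod volume) := (gau_int he).mul_prod hi.abs
    refine hd.mono' ?_ ?_
    · have : Continuous (Function.uncurry fun x c => gau e x * (gau e (x - c) * φ c)) := by
        have h5 := gau_cont e
        unfold Function.uncurry
        exact (h5.comp continuous_fst).mul
          ((h5.comp (continuous_fst.sub continuous_snd)).mul (hφ.comp continuous_snd))
      exact this.aestronglyMeasurable
    · refine Eventually.of_forall fun p => ?_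
      simp only [Function.uncurry]
      rw [norm_mul, norm_mul, Real.norm_eq_abs, Real.norm_eq_abs, Real.norm_eq_abs,
        abs_of_pos (gau_pos e p.1), abs_of_pos (gau_pos e _)]
      have h6 := gau_le_one he.le (p.1 - p.2)
      have h7 := (gau_pos e p.1).le
      have h8 := abs_nonneg (φ p.2)
      calc gau e p.1 * (gau e (p.1 - p.2) * |φ p.2|)
          ≤ gau e p.1 * (1 * |φ p.2|) := by gcongr
        _ = gau e p.1 * |φ p.2| := by ring
  have h5 : ∫ c, ∫ x, gau e x * (gau e (x - c) * φ c)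
      = (∫ x, gau (2 * e) x) * ∫ c, φ c * gau (e / 2) c := by
    rw [← integral_const_mul]
    refine integral_congr_ae (Eventually.of_forall fun c => ?_)
    simp only
    have h6 : ∀ x, gau e x * (gau e (x - c) * φ c) = gau e x * gau e (x - c) * φ c := by
      intro x; ring
    simp_rw [h6]
    rw [integral_mul_const, gau_conv]
    ring
  have hK : 0 < ∫ x, gau (2 * e) x := by
    have := gau_int (e := 2 * e) (by linarith)
    exact integral_exp_pos this
  rw [h1, h3, h4, h5] at h0
  exact (mul_nonneg_iff_of_pos_left hK).1 h0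

/-- An integrable bounded continuous function which is positive for finite real
combinations has nonnegative integral. -/
theorem pos_real (φ : ℝ × ℝ → ℝ)
    (hφ : Continuous φ) (B : ℝ) (hB : ∀ c, |φ c| ≤ B)
    (hpos : ∀ (s : Finset (ℝ × ℝ)) (w : ℝ × ℝ → ℝ),
      0 ≤ ∑ a ∈ s, ∑ b ∈ s, w a * w b * φ (a - b)) (hi : Integrable φ) :
    0 ≤ ∫ c, φ c := by
  have hlim : Tendsto (fun n : ℕ => ∫ c, φ c * gau ((1 / ((n : ℝ) + 1)) / 2) c) atTop
      (𝓝 (∫ c, φ c)) := by
    refine tendsto_integral_of_dominated_convergence (fun c => |φ c|) ?_ hi.abs ?_ ?_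
    · intro n
      exact (hφ.mul (gau_cont _)).aestronglyMeasurable
    · intro n
      refine Eventually.of_forall fun c => ?_
      rw [norm_mul, Real.norm_eq_abs, Real.norm_eq_abs, abs_of_pos (gau_pos _ c)]
      have h6 := gau_le_one (e := (1 / ((n : ℝ) + 1)) / 2) (by positivity) c
      have h8 := abs_nonneg (φ c)
      calc |φ c| * gau ((1 / ((n : ℝ) + 1)) / 2) c ≤ |φ c| * 1 := by gcongr
        _ = |φ c| := mul_one _
    · refine Eventually.of_forall fun c => ?_
      have h9 : Tendsto (fun n : ℕ => (1 / ((n : ℝ) + 1)) / 2) atTop (𝓝 (0 / 2)) :=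
        (tendsto_one_div_add_atTop_nhds_zero_nat (𝕜 := ℝ)).div_const 2
      have h10 : Tendsto (fun n : ℕ => gau ((1 / ((n : ℝ) + 1)) / 2) c) atTop (𝓝 (gau 0 c)) := by
        rw [zero_div] at h9
        have h11 : Continuous fun e : ℝ => gau e c := by
          unfold gau
          fun_prop
        exact (h11.tendsto 0).comp h9
      have h12 : gau 0 c = 1 := by simp [gau]
      rw [h12] at h10
      simpa using h10.const_mul (φ c)
  refine ge_of_tendsto hlim (Eventually.of_forall fun n => ?_)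
  exact pos_gau (e := 1 / ((n : ℝ) + 1)) (by positivity) φ hφ B hB hpos hi

theorem pos_int {D : Type*} [NormedAddCommGroup D] [InnerProductSpace ℂ D]
    (R : ℝ × ℝ → D → D) (C : D → D) (radd : ∀ c c' v, R c (R c' v) = R (c + c') v)
    (rinn : ∀ c v w, inner ℂ (R c v) (R c w) = inner ℂ v w)
    (rcont : ∀ v, Continuous fun c => R c v)
    (cadd : ∀ v w, C (v + w) = C v + C w)
    (csmul : ∀ (a : ℂ) v, C (a • v) = a • C v)
    (ccomm : ∀ c v, C (R c v) = R c (C v))
    (cpos : ∀ v, 0 ≤ (inner ℂ v (C v)).re) (z : D)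
    (hz : Integrable fun c => inner ℂ (R c z) (C z)) :
    0 ≤ (∫ c, inner ℂ (R c z) (C z)).re := by
  have e1 : (∫ c, inner ℂ (R c z) (C z)).re = ∫ c, (inner ℂ (R c z) (C z)).re :=
    (integral_re hz).symm
  rw [e1]
  have hcont : Continuous fun c : ℝ × ℝ => (inner ℂ (R c z) (C z) : ℂ).re :=
    Complex.continuous_re.comp ((rcont z).inner continuous_const)
  have hnorm : ∀ c, ‖R c z‖ = ‖z‖ := by
    intro c
    have h1 : ‖R c z‖ ^ 2 = ‖z‖ ^ 2 := by
      rw [← inner_self_eq_norm_sq (𝕜 := ℂ), ← inner_self_eq_norm_sq (𝕜 := ℂ), rinn]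
    exact (sq_eq_sq₀ (norm_nonneg _) (norm_nonneg _)).1 h1
  refine pos_real _ hcont (‖z‖ * ‖C z‖) ?_ ?_ hz.re
  · intro c
    refine (Complex.abs_re_le_norm _).trans ?_
    refine (norm_inner_le_norm _ _).trans ?_
    rw [hnorm]
  · intro s w
    set L : D →ₗ[ℂ] D := { toFun := C, map_add' := cadd, map_smul' := csmul } with hL
    have hLC : ∀ v, C v = L v := fun v => rfl
    have h1 := cpos (∑ a ∈ s, (w a : ℂ) • R a z)
    have h2 : inner ℂ (∑ a ∈ s, (w a : ℂ) • R a z) (C (∑ a ∈ s, (w a : ℂ) • R a z))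
        = ∑ a ∈ s, ∑ b ∈ s, ((w a * w b : ℝ) : ℂ) * inner ℂ (R (a - b) z) (C z) := by
      rw [hLC, map_sum, sum_inner]
      refine Finset.sum_congr rfl fun a _ => ?_
      rw [inner_sum]
      refine Finset.sum_congr rfl fun b _ => ?_
      rw [map_smul, inner_smul_left, inner_smul_right, ← hLC, ccomm]
      have h3 : inner ℂ (R a z) (R b (C z)) = (inner ℂ (R (a - b) z) (C z) : ℂ) := by
        rw [← rinn b (R (a - b) z) (C z), radd]
        congr 2
        abel_nf
      rw [h3]
      simp only [Complex.conj_ofReal]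
      push_cast
      ring
    rw [h2, Complex.re_sum] at h1
    refine h1.trans_eq (Finset.sum_congr rfl fun a _ => ?_)
    rw [Complex.re_sum]
    refine Finset.sum_congr rfl fun b _ => ?_
    rw [Complex.re_ofReal_mul]

end Vale.Agent.P352.H467
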